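import Mathlib
import Vale.Agent.P101.Statement
import Vale.Agent.P101.Transfer

/-!
# P101: the Kirchberg-Rordam character question has a positive answer

Let `A` be a separable unital C*-algebra and `ω` a free ultrafilter on `ℕ`. The ultrapower
`A_ω` exists, and for every model `q : ℓ^∞(ℕ, A) → U` of it: if the central sequence algebra
`F_ω(A) = A_ω ∩ A'` has no characters, then

1. every prime dimension drop algebra maps unitally into `F_ω(A)`;
2. so does every inductive limit of prime dimension drop algebras, e.g. the Jiang-Su algebra;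
3. `A` is isomorphic to its tensor product with the Jiang-Su algebra.
-/

open scoped BoundedContinuousFunction

namespace Vale.Agent.Results.P101.CharacterQuestion

open Vale.Agent.P101

universe u v w

theorem result {A : Type u} [CStarAlgebra A] [TopologicalSpace.SeparableSpace A]
    (ω : Ultrafilter ℕ) (hω : (ω : Filter ℕ) ≤ Filter.cofinite) :
    (∃ (U : Type u) (_ : CStarAlgebra U) (q : (ℕ →ᵇ A) →⋆ₐ[ℂ] U), IsUltrapower ω q) ∧
    ∀ (U : Type u) [CStarAlgebra U] (q : (ℕ →ᵇ A) →⋆ₐ[ℂ] U), IsUltrapower ω q →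
      IsEmpty (centralAlg q →⋆ₐ[ℂ] ℂ) →
        (∀ (D : Type v) [CStarAlgebra D], IsPrimeDimDrop D →
          Nonempty (D →⋆ₐ[ℂ] centralAlg q)) ∧
        (∀ (Z : Type v) [CStarAlgebra Z], IsPrimeDimDropLimit Z →
          Nonempty (Z →⋆ₐ[ℂ] centralAlg q)) ∧
        (∀ (Z : Type v) [CStarAlgebra Z], IsJiangSuAlgebra.{v, w} Z →
          ∀ (T : Type w) [CStarAlgebra T] (ιA : A →⋆ₐ[ℂ] T) (ιZ : Z →⋆ₐ[ℂ] T),
            IsTensor ιA ιZ → Nonempty (A ≃⋆ₐ[ℂ] T)) :=
  ⟨⟨_, _, _, isUltrapower_mk⟩, fun _ _ _ hq hchar => character_question' ω hω hq hchar⟩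

end Vale.Agent.Results.P101.CharacterQuestion
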