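import Mathlib
import Vale.Agent.P101.Statement
import Vale.Agent.P101.Transfer

/-!
# P101: no characters gives unital copies of the Jiang-Su algebra in `F_ω(A)`
-/

open scoped BoundedContinuousFunction

namespace Vale.Agent.Results.P101.EmbeddingForm

open Vale.Agent.P101

universe u v

theorem result {A : Type u} [CStarAlgebra A] [TopologicalSpace.SeparableSpace A]
    (ω : Ultrafilter ℕ) (hω : (ω : Filter ℕ) ≤ Filter.cofinite) {U : Type u} [CStarAlgebra U]
    (q : (ℕ →ᵇ A) →⋆ₐ[ℂ] U) (hq : IsUltrapower ω q)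
    (hchar : IsEmpty (centralAlg q →⋆ₐ[ℂ] ℂ)) :
    (∀ (D : Type v) [CStarAlgebra D], IsPrimeDimDrop D → Nonempty (D →⋆ₐ[ℂ] centralAlg q)) ∧
    (∀ (Z : Type v) [CStarAlgebra Z], IsPrimeDimDropLimit Z →
      Nonempty (Z →⋆ₐ[ℂ] centralAlg q)) :=
  ⟨(character_question'.{u, v, u} ω hω hq hchar).1,
    (character_question'.{u, v, u} ω hω hq hchar).2.1⟩

end Vale.Agent.Results.P101.EmbeddingForm
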